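import Vale.Agent.P058.Main

open Vale.Agent.P058

theorem Vale.Agent.Results.P058.Classify.result :
    (∀ (d : ℕ) (A : Finset (EuclideanSpace ℝ (Fin d))) (K : Subfield ℝ),
      (∀ x ∈ A, ∀ α, x α ∈ K) → (Ramsey A ↔ TensorCond K A)) ∧
    (∀ (d : ℕ) (A : Finset (EuclideanSpace ℝ (Fin d))), Subtransitive A → Ramsey A) ∧
    ∃ A : Finset (EuclideanSpace ℝ (Fin 2)), A.Nonempty ∧ Ramsey A ∧ ¬Subtransitive A :=
  main
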